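import Vale.Agent.P181.DX.H924.Main

set_option autoImplicit false

/-!
# P181, DX: one sentence for all `a ≤ b`

From `DiagW`, the theorem for `w ≤ 2 a` (line TW) and the polylog theorem `PolyS`.
-/

namespace Vale.Agent.P181.DX.X924

open Vale.Agent.P181.T4 (ex low)
open Vale.Agent.P181.H280 (plethMult)
open Vale.Agent.P181.PL

/-- The theorem of line TW. -/
def TwiceS : Prop := ∀ (a b : ℕ), a ≤ b → ∀ (n : ℕ) (lam : Fin n → ℕ), dn lam 1 ≤ 2 * a →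
  (dn lam 1 < 2 * a ∨ a + 2 ≤ b) → plethMult a b n lam ≤ plethMult b a n lam

/-- `D_2 ≤ b - a + 1`, for every `w`. -/
lemma few_all {a b n : ℕ} (hab : a ≤ b) (lam : Fin n → ℕ) (h : dn lam 2 + a ≤ b + 1) :
    plethMult a b n lam ≤ plethMult b a n lam := by
  rcases Nat.lt_or_ge a 2 with ha | ha
  · exact low_a hab (by omega) lam
  rcases Nat.lt_or_ge n 2 with hn | hn
  · by_cases hz : plethMult a b n lam = 0
    · rw [hz]
      exact Nat.zero_le _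
    obtain ⟨hanti, _, _⟩ := H530.zero_stmt a b n lam hz
    apply DG.E924.sec hab lam hanti
    rw [exge lam (by omega)]
    exact Nat.zero_le _
  · obtain ⟨j, rfl⟩ : ∃ j, n = j + 2 := ⟨n - 2, by omega⟩
    exact DG.E924.few_two lam ha h

/-- `w ≤ b`. -/
lemma small_w {a b n : ℕ} (hab : a ≤ b) (lam : Fin n → ℕ) (h : dn lam 1 ≤ b) :
    plethMult a b n lam ≤ plethMult b a n lam := by
  by_cases hz : plethMult a b n lam = 0
  · rw [hz]
    exact Nat.zero_le _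
  obtain ⟨hanti, _, _⟩ := H530.zero_stmt a b n lam hz
  rcases le_or_gt (ex lam 1) a with h1 | h1
  · exact DG.E924.sec hab lam hanti h1
  · apply few_all hab lam
    have e1 := dn_succ lam 1
    have e2 : dn lam (1 + 1) = dn lam 2 := rfl
    omega

/-- **One sentence for all `a ≤ b`.** `P = C (1 + log a) ^ c`, `w = λ_2 + λ_3 + ⋯`,
`D_2 = λ_3 + λ_4 + ⋯`: `F` holds if `w ≤ b`, or `w ≤ 2 a` (and not `w = 2 a`, `b = a + 1`), or
`D_2 ≤ b - a + 1`, or `P w ≤ b ^ 2`, `P w ≤ D_2 ^ 2` and `P w ≤ (w - a - λ_3) ^ 2`. -/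
def UniX : Prop := ∃ (C : ℝ) (c : ℕ), 1 ≤ C ∧ ∀ a b : ℕ, a ≤ b →
  ∀ (n : ℕ) (lam : Fin n → ℕ),
  (dn lam 1 ≤ b ∨ (dn lam 1 ≤ 2 * a ∧ (dn lam 1 < 2 * a ∨ a + 2 ≤ b)) ∨
    a + dn lam 2 ≤ b + 1 ∨
    (C * (1 + Real.log a) ^ c * (dn lam 1 : ℝ) ≤ (b : ℝ) ^ 2 ∧
      C * (1 + Real.log a) ^ c * (dn lam 1 : ℝ) ≤ (dn lam 2 : ℝ) ^ 2 ∧
      C * (1 + Real.log a) ^ c * (dn lam 1 : ℝ) ≤ ((dn lam 1 : ℝ) - a - ex lam 2) ^ 2)) →
  plethMult a b n lam ≤ plethMult b a n lam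

theorem uniX_of (hW : DiagW) (hT : TwiceS) (hP : PolyS) : UniX := by
  obtain ⟨C1, c1, hC1, h1⟩ := hP
  obtain ⟨C2, c2, hC2, h2⟩ := hW
  refine ⟨(C2 + 1) * (1 + C1) ^ 2, c2 + 2 * c1, one_le_mul_of_one_le_of_one_le (by linarith)
    (one_le_pow₀ (by linarith)), fun a b hab n lam h => ?_⟩
  rcases h with h | ⟨h, h'⟩ | h | ⟨h3, h4, h5⟩
  · exact small_w hab lam h
  · exact hT a b hab n lam h h'
  · exact few_all hab lam (by omega)
  have hL0 : 0 ≤ Real.log a := Real.log_natCast_nonneg a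
  obtain ⟨L, hL⟩ : ∃ L : ℝ, L = 1 + Real.log a := ⟨_, rfl⟩
  rw [← hL] at h3 h4 h5
  have hL1 : 1 ≤ L := by
    rw [hL]
    linarith
  have hw0 : (0 : ℝ) ≤ (dn lam 1 : ℝ) := Nat.cast_nonneg _
  have hLc : 1 ≤ L ^ (2 * c1) := one_le_pow₀ hL1
  have hC12 : 1 ≤ (1 + C1) ^ 2 := one_le_pow₀ (by linarith)
  obtain ⟨T, hT'⟩ : ∃ T : ℝ, T = C2 * L ^ c2 * (dn lam 1 : ℝ) := ⟨_, rfl⟩
  have hT0 : 0 ≤ T := by
    rw [hT']
    positivity
  have h6 : 1 ≤ (1 + C1) ^ 2 * L ^ (2 * c1) := one_le_mul_of_one_le_of_one_le hC12 hLc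
  have hTe : (1 + C1) ^ 2 * L ^ (2 * c1) * T ≤
      (C2 + 1) * (1 + C1) ^ 2 * L ^ (c2 + 2 * c1) * (dn lam 1 : ℝ) := by
    calc (1 + C1) ^ 2 * L ^ (2 * c1) * T =
          C2 * ((1 + C1) ^ 2 * L ^ (c2 + 2 * c1) * (dn lam 1 : ℝ)) := by
          rw [hT', pow_add]
          ring
      _ ≤ (C2 + 1) * ((1 + C1) ^ 2 * L ^ (c2 + 2 * c1) * (dn lam 1 : ℝ)) := by
          apply mul_le_mul_of_nonneg_right _ (by positivity)
          linarith
      _ = _ := by ring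
  have hTle : T ≤ (C2 + 1) * (1 + C1) ^ 2 * L ^ (c2 + 2 * c1) * (dn lam 1 : ℝ) :=
    (le_mul_of_one_le_left hT0 h6).trans hTe
  have ha0 : (0 : ℝ) ≤ a := Nat.cast_nonneg _
  have hb0 : (0 : ℝ) ≤ b := Nat.cast_nonneg _
  rcases le_or_gt T ((a : ℝ) ^ 2) with hTa | hTa
  · rcases Nat.lt_or_ge (dn lam 1) (2 * a) with h7 | h7
    · exact hT a b hab n lam h7.le (Or.inl h7)
    apply h2 a b hab n lam
    rw [Alt, ← hL, ← hT']
    exact Or.inr ⟨h7, hTa, Or.inr ⟨hTle.trans h4, hTle.trans h5⟩⟩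
  · apply h1 a b
    rw [← hL]
    have h8 : ((1 + C1) * L ^ c1 * a) ^ 2 ≤ (b : ℝ) ^ 2 := by
      calc ((1 + C1) * L ^ c1 * a) ^ 2 = (1 + C1) ^ 2 * L ^ (2 * c1) * (a : ℝ) ^ 2 := by
            rw [mul_pow, mul_pow, ← pow_mul, mul_comm c1 2]
        _ ≤ (1 + C1) ^ 2 * L ^ (2 * c1) * T := by
            apply mul_le_mul_of_nonneg_left hTa.le
            positivity
        _ ≤ _ := hTe.trans h3
    have h9 : (1 + C1) * L ^ c1 * a ≤ (b : ℝ) := abs_le_of_sq_le_sq' h8 hb0 |>.2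
    have h10 : 0 ≤ L ^ c1 * (a : ℝ) := by positivity
    calc C1 * a * L ^ c1 ≤ (1 + C1) * L ^ c1 * a := by nlinarith
      _ ≤ b := h9

/-- **`P w ≤ (b - a) ^ 2`**: only the range condition is left. -/
def UniB : Prop := ∃ (C : ℝ) (c : ℕ), 1 ≤ C ∧ ∀ a b : ℕ, a ≤ b →
  ∀ (n : ℕ) (lam : Fin n → ℕ),
  (dn lam 1 ≤ 2 * a ∨
    C * (1 + Real.log a) ^ c * (dn lam 1 : ℝ) ≤ ((dn lam 1 : ℝ) - a - ex lam 2) ^ 2) →
  C * (1 + Real.log a) ^ c * (dn lam 1 : ℝ) ≤ ((b : ℝ) - a) ^ 2 →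
  plethMult a b n lam ≤ plethMult b a n lam

theorem uniB_of (hX : UniX) : UniB := by
  obtain ⟨C, c, hC, h⟩ := hX
  refine ⟨C, c, hC, fun a b hab n lam hw h1 => ?_⟩
  apply h a b hab n lam
  rcases Nat.lt_or_ge b (dn lam 1) with hb | hb
  swap
  · exact Or.inl hb
  right
  have hL0 : 0 ≤ Real.log a := Real.log_natCast_nonneg a
  have hP : (1 : ℝ) ≤ C * (1 + Real.log a) ^ c :=
    one_le_mul_of_one_le_of_one_le hC (one_le_pow₀ (by linarith))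
  have hw0 : (0 : ℝ) ≤ (dn lam 1 : ℝ) := Nat.cast_nonneg _
  have hab' : (a : ℝ) ≤ b := by exact_mod_cast hab
  have ha0 : (0 : ℝ) ≤ a := Nat.cast_nonneg _
  have hba : (0 : ℝ) ≤ (b : ℝ) - a := by linarith
  rcases hw with hw | hw
  · left
    refine ⟨hw, ?_⟩
    rcases Nat.lt_or_ge (dn lam 1) (2 * a) with h5 | h5
    · exact Or.inl h5
    right
    by_contra hcon
    have h6 : (b : ℝ) ≤ a + 1 := by exact_mod_cast (by omega : b ≤ a + 1)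
    have h7 : ((b : ℝ) - a) ^ 2 ≤ 1 ^ 2 := pow_le_pow_left₀ hba (by linarith) 2
    have h8 : (1 : ℝ) * (dn lam 1 : ℝ) ≤ C * (1 + Real.log a) ^ c * (dn lam 1 : ℝ) :=
      mul_le_mul_of_nonneg_right hP hw0
    have h9 : (dn lam 1 : ℝ) ≤ 1 := by linarith
    have h10 : dn lam 1 ≤ 1 := by exact_mod_cast h9
    omega
  · right
    rcases Nat.lt_or_ge (b + 1) (a + dn lam 2) with h6 | h6
    swap
    · exact Or.inl h6
    right
    refine ⟨h1.trans (pow_le_pow_left₀ hba (by linarith) 2), ?_, hw⟩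
    refine h1.trans (pow_le_pow_left₀ hba ?_ 2)
    have h7 : (b : ℝ) + 1 < a + dn lam 2 := by exact_mod_cast h6
    linarith

/-- **`2 a + √a polylog ≤ b`, `P w ≤ a ^ 2`**: no other condition. -/
def LinX : Prop := ∃ (C : ℝ) (c : ℕ), 1 ≤ C ∧ ∀ a b : ℕ, 2 * a ≤ b →
  C * (1 + Real.log a) ^ c * (a : ℝ) ≤ ((b : ℝ) - 2 * a) ^ 2 →
  ∀ (n : ℕ) (lam : Fin n → ℕ), C * (1 + Real.log a) ^ c * (dn lam 1 : ℝ) ≤ (a : ℝ) ^ 2 →
  plethMult a b n lam ≤ plethMult b a n lam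

theorem linX_of (hX : UniX) : LinX := by
  obtain ⟨C, c, hC, h⟩ := hX
  refine ⟨16 * C, c, by linarith, fun a b hab h1 n lam h2 => ?_⟩
  rcases Nat.lt_or_ge b (dn lam 1) with hwb | hwb
  swap
  · exact small_w (by omega) lam hwb
  have hlog : 0 ≤ Real.log a := Real.log_natCast_nonneg a
  obtain ⟨P, hP⟩ : ∃ P : ℝ, P = C * (1 + Real.log a) ^ c := ⟨_, rfl⟩
  have hP1 : 1 ≤ P := by
    rw [hP]
    exact one_le_mul_of_one_le_of_one_le hC (one_le_pow₀ (by linarith))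
  have hP0 : 0 < P := by linarith
  have hw0 : (0 : ℝ) ≤ (dn lam 1 : ℝ) := Nat.cast_nonneg _
  rw [mul_assoc 16, ← hP] at h1 h2
  have ha0 : (0 : ℝ) ≤ a := Nat.cast_nonneg _
  have hwb' : (b : ℝ) < dn lam 1 := by exact_mod_cast hwb
  have hab' : 2 * (a : ℝ) ≤ b := by exact_mod_cast hab
  have h5 : P * (dn lam 1 : ℝ) ≤ (a : ℝ) ^ 2 := by
    have : 0 ≤ P * (dn lam 1 : ℝ) := by positivity
    linarith
  by_cases hz : plethMult a b n lam = 0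
  · rw [hz]
    exact Nat.zero_le _
  obtain ⟨hanti, _, _⟩ := H530.zero_stmt a b n lam hz
  apply h a b (by omega) n lam
  rw [← hP]
  rcases Nat.lt_or_ge (b + 1) (a + dn lam 2) with h6 | h6
  swap
  · exact Or.inr (Or.inr (Or.inl h6))
  refine Or.inr (Or.inr (Or.inr ⟨?_, ?_, ?_⟩))
  · exact h5.trans (pow_le_pow_left₀ ha0 (by linarith) 2)
  · refine h5.trans (pow_le_pow_left₀ ha0 ?_ 2)
    have h7 : (b : ℝ) + 1 < a + dn lam 2 := by exact_mod_cast h6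
    linarith
  · have e1 := dn_succ lam 1
    have e2 : dn lam (1 + 1) = dn lam 2 := rfl
    have e3 : ex lam 2 ≤ ex lam 1 := exanti hanti (by norm_num)
    have e4 := ex_le_dn lam 2
    have e5 : 2 * (ex lam 2 : ℝ) ≤ (dn lam 1 : ℝ) := by
      exact_mod_cast (by omega : 2 * ex lam 2 ≤ dn lam 1)
    have e6 : ((dn lam 1 : ℝ) - 2 * a) / 2 ≤ (dn lam 1 : ℝ) - a - ex lam 2 := by linarith
    have e7 : 0 ≤ ((dn lam 1 : ℝ) - 2 * a) / 2 := by linarith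
    refine le_trans ?_ (pow_le_pow_left₀ e7 e6 2)
    have e8 : (((dn lam 1 : ℝ) - 2 * a) / 2) ^ 2 = ((dn lam 1 : ℝ) - 2 * a) ^ 2 / 4 := by ring
    rw [e8, le_div_iff₀ (by norm_num)]
    rcases le_or_gt (dn lam 1 : ℝ) (4 * a) with h8 | h8
    · calc P * (dn lam 1 : ℝ) * 4 ≤ P * (4 * a) * 4 := by
            apply mul_le_mul_of_nonneg_right _ (by norm_num)
            exact mul_le_mul_of_nonneg_left h8 hP0.le
        _ = 16 * P * a := by ring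
        _ ≤ ((b : ℝ) - 2 * a) ^ 2 := h1
        _ ≤ ((dn lam 1 : ℝ) - 2 * a) ^ 2 := pow_le_pow_left₀ (by linarith) (by linarith) 2
    · -- `w > 4 a`, `w ≥ 16 P`
      have h9 : (dn lam 1 : ℝ) / 2 ≤ (dn lam 1 : ℝ) - 2 * a := by linarith
      have h10 : ((dn lam 1 : ℝ) / 2) ^ 2 ≤ ((dn lam 1 : ℝ) - 2 * a) ^ 2 :=
        pow_le_pow_left₀ (by positivity) h9 2
      refine le_trans ?_ h10
      have hwpos : (0 : ℝ) < dn lam 1 := by linarith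
      have h11 : 16 * P * (dn lam 1 : ℝ) ≤ (dn lam 1 : ℝ) * (dn lam 1 : ℝ) := by
        refine h2.trans ?_
        rw [sq]
        exact mul_le_mul (by linarith) (by linarith) ha0 hw0
      have h12 : ((dn lam 1 : ℝ) / 2) ^ 2 = (dn lam 1 : ℝ) * (dn lam 1 : ℝ) / 4 := by ring
      rw [h12]
      linarith

end Vale.Agent.P181.DX.X924
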