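import Vale.Agent.P181.PL508.Common
import Vale.Agent.P181.DX.Defs

set_option autoImplicit false

/-!
# P181, DX: only `2 a ≤ w` and a large `D_2` of the strip shape
-/

namespace Vale.Agent.P181.DX.X924

open Vale.Agent.P181.T4 (ex low)
open Vale.Agent.P181.H280 (plethMult)
open Vale.Agent.P181.H463 (gt)
open Vale.Agent.P181.PL Vale.Agent.P181.PL508

/-- The cells below row `j` of the shape without the strip. -/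
def En {n : ℕ} (a : ℕ) (lam : Fin n → ℕ) (j : ℕ) : ℕ :=
  dn lam j + min a (ex lam 1 - ex lam j) - a

/-- The row `j` of the shape without the strip. -/
def Xn {n : ℕ} (a : ℕ) (lam : Fin n → ℕ) (j : ℕ) : ℕ := En a lam j - En a lam (j + 1)

/-- **the strip** -/
lemma exists_nuW {n : ℕ} (hn : 2 ≤ n) {lam : Fin n → ℕ} (h : Antitone lam) {a T : ℕ}
    (ha : a ≤ ex lam 1) (hT : dn lam 1 + ex lam 1 ≤ T + a) :
    ∃ nu : Fin n → ℕ, Antitone nu ∧ ∑ i, nu i = T ∧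
      (∀ i : Fin n, 1 ≤ (i : ℕ) → nu i ≤ lam i) ∧
      (∀ i : Fin n, 1 ≤ (i : ℕ) → ex lam ((i : ℕ) + 1) ≤ nu i) ∧
      dn lam 1 = dn nu 1 + a ∧
      (∀ j, 1 ≤ j → dn nu j = En a lam j) ∧ (∀ j, 1 ≤ j → ex nu j = Xn a lam j) := by
  obtain ⟨nu, hnu, hnusum, hnu1, hnu2, hnu3, hnu4, _⟩ := exists_nu hn h ha hT
  have hE : ∀ j, 1 ≤ j → dn nu j = En a lam j := by
    intro j hj
    unfold En
    rcases hnu4 j hj with e | e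
    · omega
    · rw [dn_ge nu e.le, dn_ge lam e.le, exge lam e.le]
      omega
  refine ⟨nu, hnu, hnusum, hnu1, hnu2, hnu3, hE, fun j hj => ?_⟩
  unfold Xn
  rw [← hE j hj, ← hE (j + 1) (by omega)]
  have := dn_succ nu j
  omega

lemma En_two {n : ℕ} {lam : Fin n → ℕ} {a M : ℕ} (h : Antitone lam) (h1 : a ≤ ex lam 1)
    (h2 : M ≤ dn lam 2) (h3 : M + a + ex lam 2 ≤ dn lam 1) : M ≤ En a lam 2 := by
  unfold En
  have e1 := dn_succ lam 1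
  have e4 : dn lam (1 + 1) = dn lam 2 := rfl
  have e5 : ex lam 2 ≤ ex lam 1 := exanti h (by norm_num)
  omega

/-- The hypotheses at the diagonal: `DG.HyD` with `a < b` instead of `w ≤ (b - a) ^ 2`, and
`2 a ≤ w`, `w X ^ 6000 ≤ (w - a - λ_3) ^ 2` instead of `3 a ≤ w`. -/
def HyW (a b n X : ℕ) (lam : Fin n → ℕ) : Prop :=
  Antitone lam ∧ ∑ i, lam i = a * b ∧ (∀ i, 0 < lam i) ∧ n ≤ a ∧ a ≤ b ∧ b ≤ 5 * a ∧
    a < b ∧ X ^ 20000 ≤ a ∧ 10 ^ 12 * (1 + Real.log a) ^ 7 ≤ X ∧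
    dn lam 1 * X ^ 6000 ≤ dn lam 2 ^ 2 ∧ a < ex lam 1 ∧
    dn lam 1 * X ^ 6000 ≤ (dn lam 1 - a - ex lam 2) ^ 2 ∧ 2 * a ≤ dn lam 1 ∧
    dn lam 1 * X ^ 13000 ≤ a ^ 2

/-- the numbers `Z`, `K` -/
lemma commonW {a b n X : ℕ} {lam : Fin n → ℕ} (h : HyW a b n X lam) :
    1 ≤ a ∧ 10 ^ 12 ≤ X ∧ 10 ^ 12 * Real.log a ≤ X ∧ 10 ^ 12 * (1 + Real.log a) ^ 6 ≤ X ∧
    dn lam 1 + 1 ≤ a ^ 2 ∧ dn lam 2 ≤ dn lam 1 ∧ 2 * a ≤ dn lam 1 ∧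
    ∃ Z K, Z ^ 2 ≤ dn lam 1 ∧ dn lam 1 < (Z + 1) ^ 2 ∧ X ^ 9999 ≤ Z ∧ Z * X ^ 2 < a ∧
      Z * X ^ 6500 ≤ a ∧ Z * X ^ 3000 ≤ En a lam 2 ∧ a + 1 ≤ b ∧
      1 ≤ K ∧ 1024 * (3 * K + 1) ≤ X ∧ 4 * dn lam 1 ≤ X ^ K ∧ (Z + 1) * X ^ 3 ≤ a := by
  obtain ⟨hanti, hsum, _, hna, hab, hab5, hdiag, hXa, hlog, hbD, h1, hbW, h2w, hw⟩ := h
  have ha : 1 ≤ a := by
    by_contra hcon
    have : a = 0 := by omega
    subst this
    rw [zero_mul] at hsum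
    have h2 := ex_le_dn lam 1
    have h3 := dn_anti lam (Nat.zero_le 1)
    rw [dn_zero, hsum] at h3
    omega
  obtain ⟨hX, hl1, hl6, K, _, hK2, hK3⟩ := X_facts ha hlog
  have hdn1 : dn lam 1 = ex lam 1 + dn lam 2 := dn_succ lam 1
  have hEn : ∀ M, M ≤ dn lam 2 → M + a + ex lam 2 ≤ dn lam 1 → M ≤ En a lam 2 :=
    fun M => En_two hanti h1.le
  obtain ⟨w, hwdef⟩ : ∃ w, w = dn lam 1 := ⟨_, rfl⟩
  rw [← hwdef] at hw h2w hdn1 hbD hbW hEn ⊢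
  have hX1 : 1 ≤ X := le_trans (by norm_num) hX
  have hXX : X ≤ X ^ 13000 := Nat.le_self_pow (by norm_num) X
  have hwa : w + 1 ≤ a ^ 2 := by
    have : w * 2 ≤ w * X ^ 13000 := Nat.mul_le_mul_left _ (by omega)
    omega
  obtain ⟨Z, hZ⟩ : ∃ Z, Z = Nat.sqrt w := ⟨_, rfl⟩
  have hZ1 : Z ^ 2 ≤ w := by
    rw [hZ]
    exact Nat.sqrt_le' w
  have hZ2 : w < (Z + 1) ^ 2 := by
    rw [hZ]
    exact Nat.lt_succ_sqrt' w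
  have hZa : Z * X ^ 6500 ≤ a := by
    have h2 : (Z * X ^ 6500) ^ 2 ≤ a ^ 2 := by
      calc (Z * X ^ 6500) ^ 2 = Z ^ 2 * X ^ 13000 := by ring
        _ ≤ w * X ^ 13000 := Nat.mul_le_mul_right _ hZ1
        _ ≤ a ^ 2 := hw
    exact (Nat.pow_le_pow_iff_left (by norm_num)).1 h2
  have hZX : X ^ 9999 ≤ Z := by
    by_contra hcon
    have h2 : Z + 1 ≤ X ^ 9999 := by omega
    have h3 : (Z + 1) ^ 2 ≤ (X ^ 9999) ^ 2 := Nat.pow_le_pow_left h2 2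
    have h5 : (X ^ 9999) ^ 2 ≤ X ^ 20000 := by
      rw [← pow_mul]
      exact Nat.pow_le_pow_right hX1 (by norm_num)
    omega
  have hZpos : 1 ≤ Z := (Nat.one_le_pow _ _ hX1).trans hZX
  have h7 : 2 * (Z * X ^ 2) ≤ a := by
    refine le_trans ?_ hZa
    calc 2 * (Z * X ^ 2) = Z * (2 * X ^ 2) := by ring
      _ ≤ Z * (X * X ^ 2) := Nat.mul_le_mul_left _ (Nat.mul_le_mul_right _ (by omega))
      _ = Z * X ^ 3 := by ring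
      _ ≤ Z * X ^ 6500 := Nat.mul_le_mul_left _ (Nat.pow_le_pow_right hX1 (by norm_num))
  have h8 : 1 ≤ Z * X ^ 2 := Nat.mul_pos hZpos (Nat.one_le_pow _ _ hX1)
  refine ⟨ha, hX, hl1, hl6, hwa, by omega, h2w, Z, K / 8 + 1, hZ1, hZ2, hZX, by omega, hZa, ?_,
    hdiag, by omega, by omega, ?_, ?_⟩
  · have h2 : (Z * X ^ 3000) ^ 2 ≤ w * X ^ 6000 := by
      calc (Z * X ^ 3000) ^ 2 = Z ^ 2 * X ^ 6000 := by ring
        _ ≤ w * X ^ 6000 := Nat.mul_le_mul_right _ hZ1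
    have h3 : Z * X ^ 3000 ≤ dn lam 2 :=
      (Nat.pow_le_pow_iff_left (by norm_num)).1 (h2.trans hbD)
    have h4 : Z * X ^ 3000 ≤ w - a - ex lam 2 :=
      (Nat.pow_le_pow_iff_left (by norm_num)).1 (h2.trans hbW)
    have h5 : 1 ≤ Z * X ^ 3000 := Nat.mul_pos hZpos (Nat.one_le_pow _ _ hX1)
    exact hEn _ h3 (by omega)
  · have h2 : a ^ 2 ≤ a ^ 3 := Nat.pow_le_pow_right ha (by norm_num)
    have h3 : 2 ^ K ≤ X ^ (K / 8 + 1) := by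
      calc 2 ^ K ≤ 2 ^ (8 * (K / 8 + 1)) := Nat.pow_le_pow_right (by norm_num) (by omega)
        _ = (2 ^ 8) ^ (K / 8 + 1) := by rw [pow_mul]
        _ ≤ X ^ (K / 8 + 1) := Nat.pow_le_pow_left (by omega) _
    omega
  · calc (Z + 1) * X ^ 3 ≤ (2 * Z) * X ^ 3 := Nat.mul_le_mul_right _ (by omega)
      _ = Z * (2 * X ^ 3) := by ring
      _ ≤ Z * (X * X ^ 3) := Nat.mul_le_mul_left _ (Nat.mul_le_mul_right _ (by omega))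
      _ = Z * X ^ 4 := by ring
      _ ≤ Z * X ^ 6500 := Nat.mul_le_mul_left _ (Nat.pow_le_pow_right hX1 (by norm_num))
      _ ≤ a := hZa

/-- `DX.AsmX` with the hypotheses `1024 (3 K + 1) ≤ X` and `(Z + 1) X ^ 3 ≤ a` only. -/
def AsmX : Prop := ∀ (a b n R X Z K w a0 b0 : ℕ) (lam nu : Fin n → ℕ), Antitone lam →
  ∑ i, lam i = a * b → ((∀ i, 0 < lam i) ∨ n ≤ Z * X ^ 2) → 1 ≤ R → R + 1 < n →
  w = dn lam 1 → Z ^ 2 ≤ w → w < (Z + 1) ^ 2 →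
  1 ≤ K → 1024 * (3 * K + 1) ≤ X → X ≤ Z → 4 * w ≤ X ^ K → (Z + 1) * X ^ 3 ≤ a →
  a + 1 ≤ b → 1 ≤ a0 → a0 < a → a + a0 * (a0 + 2) ≤ w → 3 * (b0 + 1) ≤ a →
  (∀ i : Fin n, 1 ≤ (i : ℕ) → nu i ≤ lam i) →
  (∀ i : Fin n, 1 ≤ (i : ℕ) → ex lam ((i : ℕ) + 1) ≤ nu i) → w = dn nu 1 + a →
  (n ≤ Z * X ^ 2 → 2 * ((w + 1) ^ ((R + 1) * (Z * X ^ 2)) *
    gt (n - R) (Z * X ^ 2 + 1) (low R nu)) ≤ plethMult b0 a0 n nu) →
  plethMult a b n lam ≤ plethMult b a n lam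

lemma asmX_of (h : DX.AsmX) : AsmX := by
  intro a b n R X Z K w a0 b0 lam nu h1 h2 h3 h4 h5 h6 h7 h8 h9 h10 h11 h12 h13 h14 h15 h16 h17 h18
    h19 h20 h21 h22
  have hK : 100 * K ≤ X ^ 2 := by nlinarith
  have hZ : Z * X ^ 2 + 2 ≤ (Z + 1) * X ^ 3 := by
    have e1 : X ^ 2 ≤ X ^ 3 := Nat.pow_le_pow_right (by omega) (by norm_num)
    have e2 : Z * X ^ 2 ≤ Z * X ^ 3 := Nat.mul_le_mul_left _ e1
    have e3 : X ^ 1 ≤ X ^ 3 := Nat.pow_le_pow_right (by omega) (by norm_num)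
    rw [add_mul]
    omega
  refine h a b n R X Z K w a0 b0 lam nu h1 h2 h3 h4 h5 h6 h7 h8 h9 (by omega) h11 h12 ?_ h14 h13
    (hZ.trans h13) h15 h16 h17 h18 h19 h20 h21 h22
  calc 100 * K * ((Z + 1) * X) ≤ X ^ 2 * ((Z + 1) * X) := Nat.mul_le_mul_right _ hK
    _ = (Z + 1) * X ^ 3 := by ring
    _ ≤ a := h13

end Vale.Agent.P181.DX.X924
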