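import Vale.Agent.P181.DX.H924.Common
import Vale.Agent.P181.PL5.Br
import Vale.Agent.P181.PL81.Heavy1
import Vale.Agent.P181.SZN4.Num

set_option autoImplicit false

/-!
# P181, DX: the tail behind row `R` is light
-/

namespace Vale.Agent.P181.DX.X924

open Vale.Agent.P181.T4 (ex low low_anti)
open Vale.Agent.P181.H280 (plethMult)
open Vale.Agent.P181.H463 (gt)
open Vale.Agent.P181.PL Vale.Agent.P181.PL508
open Vale.Agent.P181.SZ (LBC LBR)
open Vale.Agent.P181.SZN4 (low_bound k0_facts b0_small sum_row_le below_split)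

lemma gt_mono_letters {k J : ℕ} {f : Fin k → ℕ} (hf : Antitone f) :
    gt k J f ≤ gt k (J + 1) f := by
  rw [gt]
  apply Finset.single_le_sum (f := fun mu => gt k J mu) (fun _ _ => Nat.zero_le _)
  rw [PL5.mem_strips_ex]
  exact fun i => ⟨exanti hf (by omega), le_rfl⟩

lemma gt_mono_letters' {k J J' : ℕ} {f : Fin k → ℕ} (hf : Antitone f) (h : J ≤ J') :
    gt k J f ≤ gt k J' f := by
  induction h with
  | refl => exact le_rfl
  | step _ ih => exact ih.trans (gt_mono_letters hf)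

/-- The rows from the gaps, with the constant `1 / 2`. -/
lemma sum_row_le2 (f : ℕ → ℕ) (R M : ℕ) (hR : 1 ≤ R)
    (hM : ∀ j, 2 ≤ j → j ≤ R → f (j - 1) - f j ≤ M) :
    2 * ∑ i ∈ Finset.Ico 1 R, f i ≤ R ^ 2 * M + 2 * (R * f R) := by
  have key : ∀ d, d + 1 ≤ R →
      2 * ∑ i ∈ Finset.Ico (R - d) R, f i ≤ d * (d + 1) * M + 2 * (d * f R) := by
    intro d
    induction d with
    | zero =>
      intro _
      simp
    | succ d ih =>
      intro hd
      have h1 := ih (by omega)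
      have h2 := SZN4.row_le f R M hM (d + 1) (R - (d + 1)) (by omega) (by omega)
      rw [Finset.sum_eq_sum_Ico_succ_bot (by omega : R - (d + 1) < R),
        show R - (d + 1) + 1 = R - d by omega]
      have e1 : (d + 1) * (d + 1 + 1) * M = d * (d + 1) * M + 2 * ((d + 1) * M) := by ring
      have e2 : 2 * ((d + 1) * f R) = 2 * (d * f R) + 2 * f R := by ring
      omega
  have h1 := key (R - 1) (by omega)
  rw [show R - (R - 1) = 1 by omega] at h1
  have e1 : (R - 1) * (R - 1 + 1) * M ≤ R ^ 2 * M := by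
    apply Nat.mul_le_mul_right
    rw [sq]
    exact Nat.mul_le_mul (by omega) (by omega)
  have e2 : (R - 1) * f R ≤ R * f R := Nat.mul_le_mul_right _ (by omega)
  omega

/-- The light case with more than `R + 1` rows, some of them possibly zero. -/
lemma light_core (hA : AsmX) (hC : LBC) (hR' : LBR) {a b n X R : ℕ} {lam : Fin n → ℕ}
    (hlam : Antitone lam) (hsum : ∑ i, lam i = a * b)
    (hpos : (∀ i, 0 < lam i) ∨ n ≤ X ^ 57) (hR3 : 3 ≤ R) (hRn : R + 1 < n) (hRX : R ≤ X ^ 14)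
    (h1 : a < ex lam 1)
    (hw12 : dn lam 1 * X ^ 12000 ≤ a ^ 2) (hD : X ^ 2550 * En a lam R ≤ Xn a lam 2)
    (ha : 1 ≤ a) (hX : 10 ^ 12 ≤ X) (hl1 : 10 ^ 12 * Real.log a ≤ X)
    (hwa : dn lam 1 + 1 ≤ a ^ 2) (hDD : dn lam 2 ≤ dn lam 1) (h2a : 2 * a ≤ dn lam 1)
    {Z K : ℕ} (hZ1 : Z ^ 2 ≤ dn lam 1) (hZ2 : dn lam 1 < (Z + 1) ^ 2) (hZX : X ^ 9999 ≤ Z)
    (hab : a + 1 ≤ b) (hDZ : Z * X ^ 3000 ≤ En a lam 2)
    (hK1 : 1 ≤ K) (hK2 : 1024 * (3 * K + 1) ≤ X) (hwX : 4 * dn lam 1 ≤ X ^ K) :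
    plethMult a b n lam ≤ plethMult b a n lam := by
  have hX1 : 1 ≤ X := le_trans (by norm_num) hX
  have hXp : ∀ i j, i ≤ j → X ^ i ≤ X ^ j := fun i j hij => Nat.pow_le_pow_right hX1 hij
  have hXpos : ∀ i, 1 ≤ X ^ i := fun i => Nat.one_le_pow _ _ hX1
  have hXp1 : ∀ j, 1 ≤ j → X ≤ X ^ j := fun j hj => by
    have := hXp 1 j hj
    rwa [pow_one] at this
  have hXX : ∀ i j : ℕ, i + 1 ≤ j → 10 ^ 12 * X ^ i ≤ X ^ j := by
    intro i j hij
    refine le_trans ?_ (hXp (i + 1) j hij)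
    rw [pow_succ, mul_comm]
    exact Nat.mul_le_mul_left _ hX
  have hZpos : 1 ≤ Z := (hXpos 9999).trans hZX
  have hZ12 : Z * X ^ 6000 ≤ a := by
    have h2 : (Z * X ^ 6000) ^ 2 ≤ a ^ 2 := by
      calc (Z * X ^ 6000) ^ 2 = Z ^ 2 * X ^ 12000 := by ring
        _ ≤ dn lam 1 * X ^ 12000 := Nat.mul_le_mul_right _ hZ1
        _ ≤ a ^ 2 := hw12
    exact (Nat.pow_le_pow_iff_left (by norm_num)).1 h2
  have hZ3 : Z * X ^ 3000 ≤ a := (Nat.mul_le_mul_left _ (hXp _ _ (by norm_num))).trans hZ12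
  obtain ⟨w, hwdef⟩ : ∃ w, w = dn lam 1 := ⟨_, rfl⟩
  rw [← hwdef] at hw12 hwa hDD h2a hZ1 hZ2 hwX
  have hZZ : Z ^ 2 = Z * Z := sq Z
  have hZbig : 10 ^ 12 ≤ Z := hX.trans ((hXp1 9999 (by norm_num)).trans hZX)
  have hwZ : w ≤ 2 * Z ^ 2 := by
    have e : (Z + 1) ^ 2 = Z ^ 2 + 2 * Z + 1 := by ring
    have e2 : Z * 4 ≤ Z * Z := Nat.mul_le_mul_left _ (by omega)
    rw [← hZZ] at e2
    omega
  -- the numbers
  obtain ⟨V, hV⟩ : ∃ V, V = X ^ 58 := ⟨_, rfl⟩
  have hV6 : 10 ^ 6 ≤ V := by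
    rw [hV]
    have := hXp1 58 (by norm_num)
    omega
  have hV20 : V ^ 20 ≤ Z := by
    rw [hV, ← pow_mul]
    exact (hXp _ _ (by norm_num)).trans hZX
  obtain ⟨hk1, hk2, hk15, hkZ, hkX, hZV⟩ := k0_facts hV6 hV20
  obtain ⟨k, hk⟩ : ∃ k, k = Z / V ^ 5 := ⟨_, rfl⟩
  rw [← hk] at hk1 hk2 hk15 hkZ hkX
  have hkpos : 0 < k := by omega
  have hkw : w ≤ k * (w / k + 1) := by
    have h := Nat.div_add_mod w k
    have h' := Nat.mod_lt w hkpos
    have e : k * (w / k + 1) = k * (w / k) + k := by ring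
    omega
  have hdn1 : w = ex lam 1 + dn lam 2 := by rw [hwdef, dn_succ]
  have hT : dn lam 1 + ex lam 1 ≤ 2 * k * (w / k + 1) + a := by
    have e : 2 * k * (w / k + 1) = 2 * (k * (w / k + 1)) := by ring
    omega
  obtain ⟨nu, hnu, hnusum, hnu1, hnu2, hnu3, hnuE, hnuX⟩ :=
    exists_nuW (by omega : 2 ≤ n) hlam (a := a) h1.le hT
  rw [← hnuX 2 (by norm_num), ← hnuE R (by omega)] at hD
  rw [← hnuE 2 (by norm_num)] at hDZ
  -- the shape
  have hexR := ex_le_dn nu R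
  have hRp : R + 1 ≤ X ^ 15 := by
    have e1 : 10 ^ 12 * X ^ 14 ≤ X ^ 15 := hXX 14 15 (by norm_num)
    have e2 := hXpos 14
    omega
  have hD3 : dn nu 2 ≤ dn nu R + (R - 2) * ex nu 2 := by
    have := dn_le hnu 2 (R - 2)
    rwa [show 2 + (R - 2) = R by omega] at this
  have hna : Z * X ^ 3000 ≤ X ^ 14 * ex nu 2 := by
    have e1 : dn nu R ≤ X ^ 2550 * dn nu R := Nat.le_mul_of_pos_left _ (hXpos 2550)
    have e2 : (R - 2) * ex nu 2 + 1 * ex nu 2 ≤ X ^ 14 * ex nu 2 := by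
      rw [← add_mul]
      exact Nat.mul_le_mul_right _ (by omega)
    omega
  -- `Z V^14 ≤ 2 nu_2`
  have hf1 : Z * V ^ 14 ≤ 2 * ex nu 2 := by
    have e1 : X ^ 14 * (Z * V ^ 14) ≤ X ^ 14 * (2 * ex nu 2) := by
      calc X ^ 14 * (Z * V ^ 14) = Z * X ^ 826 := by
            rw [hV, ← pow_mul]
            ring
        _ ≤ Z * X ^ 3000 := Nat.mul_le_mul_left _ (hXp _ _ (by norm_num))
        _ ≤ X ^ 14 * ex nu 2 := hna
        _ ≤ X ^ 14 * (2 * ex nu 2) := Nat.mul_le_mul_left _ (by omega)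
    exact Nat.le_of_mul_le_mul_left e1 (hXpos 14)
  -- `8 nu_R ≤ 2 nu_2`
  have hf2 : 8 * ex nu R ≤ 2 * ex nu 2 := by
    have e1 : 8 * ex nu R ≤ X ^ 2550 * dn nu R := by
      apply Nat.mul_le_mul _ hexR
      have := hXp1 2550 (by norm_num)
      omega
    omega
  -- the tail
  have hl2w : ex nu 2 ≤ w := by
    have e1 := ex_le_dn nu 2
    have e2 := dn_anti nu (show 1 ≤ 2 by norm_num)
    omega
  have htl : V ^ 6 * (R * ex nu R + ∑ i, low R nu i) ≤ w := by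
    rw [sum_low, hV, ← pow_mul]
    calc X ^ (58 * 6) * (R * ex nu R + dn nu R) ≤ X ^ (58 * 6) * (X ^ 15 * dn nu R) := by
          apply Nat.mul_le_mul_left
          calc R * ex nu R + dn nu R ≤ R * dn nu R + dn nu R :=
                Nat.add_le_add_right (Nat.mul_le_mul_left _ hexR) _
            _ = (R + 1) * dn nu R := by ring
            _ ≤ X ^ 15 * dn nu R := Nat.mul_le_mul_right _ hRp
      _ = X ^ 363 * dn nu R := by
          rw [← mul_assoc, ← pow_add]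
      _ ≤ X ^ 2550 * dn nu R := Nat.mul_le_mul_right _ (hXp _ _ (by norm_num))
      _ ≤ w := hD.trans hl2w
  have htl6 : 6 * (R * ex nu R + ∑ i, low R nu i) ≤ w := by
    refine le_trans (Nat.mul_le_mul_right _ ?_) htl
    calc 6 ≤ V := by omega
      _ ≤ V ^ 6 := Nat.le_self_pow (by norm_num) V
  -- the gap
  have hgap : ∀ l, 2 ≤ l → l ≤ R →
      (∀ j, 2 ≤ j → j ≤ R → ex nu (j - 1) - ex nu j ≤ ex nu (l - 1) - ex nu l) →
      w ≤ 2 * R ^ 2 * (ex nu (l - 1) - ex nu l) := by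
    intro l _ _ hlmax
    have e1 := sum_row_le2 (ex nu) R (ex nu (l - 1) - ex nu l) (by omega) hlmax
    have e2 : dn nu 1 = ∑ i ∈ Finset.Ico 1 R, ex nu i + ∑ i, low R nu i :=
      below_split (by omega) (by omega) nu
    have e3 : 2 * R ^ 2 * (ex nu (l - 1) - ex nu l) =
      2 * (R ^ 2 * (ex nu (l - 1) - ex nu l)) := by ring
    omega
  -- the logarithm
  have hlog : 100 * (R : ℝ) * Real.log (w + 1) ≤ (V : ℝ) := by
    have hL0 : 0 ≤ Real.log a := Real.log_nonneg (by exact_mod_cast ha)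
    have e1 : Real.log ((w : ℝ) + 1) ≤ 2 * Real.log a := by
      have e2 : Real.log ((w : ℝ) + 1) ≤ Real.log ((a : ℝ) ^ 2) := by
        apply Real.log_le_log (by positivity)
        exact_mod_cast hwa
      rw [Real.log_pow] at e2
      exact_mod_cast e2
    have e2 : (R : ℝ) ≤ (X : ℝ) ^ 14 := by exact_mod_cast hRX
    have e3 : (0 : ℝ) ≤ X := Nat.cast_nonneg X
    have e4 : (X : ℝ) ^ 14 * X ≤ (V : ℝ) := by
      have : X ^ 14 * X ≤ V := by
        rw [hV]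
        calc X ^ 14 * X = X ^ 15 := by ring
          _ ≤ X ^ 58 := hXp _ _ (by norm_num)
      exact_mod_cast this
    calc 100 * (R : ℝ) * Real.log (w + 1) ≤ 100 * (X : ℝ) ^ 14 * (2 * Real.log a) := by
          apply mul_le_mul _ e1 (Real.log_nonneg (by
            have : (0 : ℝ) ≤ w := Nat.cast_nonneg w
            linarith)) (by positivity)
          linarith
      _ = (X : ℝ) ^ 14 * (200 * Real.log a) := by ring
      _ ≤ (X : ℝ) ^ 14 * X := by
          apply mul_le_mul_of_nonneg_left _ (by positivity)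
          linarith
      _ ≤ (V : ℝ) := e4
  have hR4 : 10 ^ 6 * R ^ 4 ≤ V := by
    rw [hV]
    calc 10 ^ 6 * R ^ 4 ≤ 10 ^ 12 * (X ^ 14) ^ 4 :=
          Nat.mul_le_mul (by norm_num) (Nat.pow_le_pow_left hRX 4)
      _ = 10 ^ 12 * X ^ 56 := by rw [← pow_mul]
      _ ≤ X ^ 58 := hXX 56 58 (by norm_num)
  -- the assembly
  have hZ57 : X ^ 57 ≤ Z := (hXp _ _ (by norm_num)).trans hZX
  have hZa : Z ≤ a := (Nat.le_mul_of_pos_right Z (hXpos 6000)).trans hZ12
  have hb0 : w / k + 1 + 1 + 0 * 0 ≤ Z * V ^ 8 :=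
    b0_small (R := 0) (r := 0) (t := 0) hV6 (Nat.zero_le _) le_rfl (Nat.zero_le _) hk2 hkpos hwZ
      hZpos
  have hZV8 : 3 * (Z * V ^ 8) ≤ a := by
    calc 3 * (Z * V ^ 8) = Z * (3 * X ^ 464) := by
          rw [hV, ← pow_mul]
          ring
      _ ≤ Z * X ^ 6000 := by
          apply Nat.mul_le_mul_left
          have e2 := hXX 464 6000 (by norm_num)
          omega
      _ ≤ a := hZ12
  have hk24 : 24 * k ^ 2 ≤ w := by
    calc 24 * k ^ 2 ≤ (V ^ 5) ^ 2 * k ^ 2 := by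
          apply Nat.mul_le_mul_right
          have e1 : V ≤ V ^ 5 := Nat.le_self_pow (by norm_num) V
          have e2 : V ^ 5 ≤ (V ^ 5) ^ 2 := Nat.le_self_pow (by norm_num) _
          omega
      _ = (k * V ^ 5) ^ 2 := by ring
      _ ≤ Z ^ 2 := Nat.pow_le_pow_left hk1 2
      _ ≤ w := hZ1
  refine hA a b n R (X ^ 57) Z K w (2 * k) (w / k + 1) lam nu hlam hsum ?_ (by omega) hRn
    hwdef hZ1 hZ2 hK1 ?_ hZ57 ?_ ?_ hab (by omega) ?_ ?_ ?_ hnu1 hnu2 (by rw [← hnu3, hwdef]) ?_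
  · -- rows
    rcases hpos with h | h
    · exact Or.inl h
    · refine Or.inr (h.trans (hZ57.trans ?_))
      exact Nat.le_mul_of_pos_right _ (Nat.pow_pos (hXpos 57))
  · have := hXp1 57 (by norm_num)
    omega
  · refine hwX.trans (Nat.pow_le_pow_left (hXp1 57 (by norm_num)) K)
  · -- (Z + 1) X1 ^ 3 ≤ a
    calc (Z + 1) * (X ^ 57) ^ 3 ≤ (2 * Z) * (X ^ 57) ^ 3 := Nat.mul_le_mul_right _ (by omega)
      _ = Z * (2 * X ^ 171) := by
          rw [← pow_mul]
          ring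
      _ ≤ Z * X ^ 6000 := by
          apply Nat.mul_le_mul_left
          have e2 := hXX 171 6000 (by norm_num)
          omega
      _ ≤ a := hZ12
  · -- a0 < a
    have e1 : 2 * k < k * V ^ 5 := by
      rw [mul_comm]
      apply Nat.mul_lt_mul_of_pos_left _ hkpos
      have e1 : V ≤ V ^ 5 := Nat.le_self_pow (by norm_num) V
      omega
    omega
  · -- a + a0 (a0 + 2) ≤ w
    have e1 : 2 * k * (2 * k + 2) = 4 * k ^ 2 + 4 * k := by ring
    have e2 : k ≤ k ^ 2 := Nat.le_self_pow (by norm_num) k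
    omega
  · -- 3 (b0 + 1) ≤ a
    omega
  · intro hnJ
    have hJ2 : 2 * (Z * (X ^ 57) ^ 2) ≤ Z * V ^ 2 := by
      calc 2 * (Z * (X ^ 57) ^ 2) = Z * (2 * X ^ 114) := by
            rw [← pow_mul]
            ring
        _ ≤ Z * X ^ 116 := by
            apply Nat.mul_le_mul_left
            have e2 := hXX 114 116 (by norm_num)
            omega
        _ = Z * V ^ 2 := by rw [hV, ← pow_mul]
    have hJpos : 1 ≤ Z * (X ^ 57) ^ 2 := Nat.mul_pos hZpos (Nat.pow_pos (hXpos 57))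
    have hlb := low_bound hC hR' (n := n) (J := Z * V ^ 2) (R := R) (X := V) (Z := Z) (w := w) nu
      hnu hR3 (by omega) (by omega) hZ1 hwZ le_rfl hR4 hV20 (2 * ex nu 2) hf1 le_rfl hf2 htl hlog
      (by rw [hnusum, hk]) hgap
    rw [← hk] at hlb
    refine le_trans ?_ hlb
    rw [mul_assoc]
    apply Nat.mul_le_mul_left
    apply Nat.mul_le_mul
    · apply Nat.pow_le_pow_right (by omega)
      calc (R + 1) * (Z * (X ^ 57) ^ 2) ≤ (R * 2) * (Z * (X ^ 57) ^ 2) :=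
            Nat.mul_le_mul_right _ (by omega)
        _ = R * (2 * (Z * (X ^ 57) ^ 2)) := by ring
        _ ≤ R * (Z * V ^ 2) := Nat.mul_le_mul_left _ hJ2
    · exact gt_mono_letters' (low_anti hnu R) (by omega)

/-- **The light case.** -/
theorem lightW (hA : AsmX) (hC : LBC) (hR' : LBR) {a b n X R : ℕ} {lam : Fin n → ℕ}
    (h : HyW a b n X lam) (hR3 : 3 ≤ R) (hRX : R ≤ X ^ 14)
    (hD : X ^ 2550 * En a lam R ≤ Xn a lam 2) :
    plethMult a b n lam ≤ plethMult b a n lam := by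
  obtain ⟨ha, hX, hl1, hl6, hwa, hDD, h2a, Z, K, hZ1, hZ2, hZX, _, hZa, hDZ, hab, hK1, hK2,
    hwX, hKa⟩ := commonW h
  obtain ⟨hlam, hsum, hpos, hna, hab', hab5, hdiag, hXa, hlog, hbD, h1, _, _, hw⟩ := h
  have hX1 : 1 ≤ X := le_trans (by norm_num) hX
  have hw12 : dn lam 1 * X ^ 12000 ≤ a ^ 2 :=
    (Nat.mul_le_mul_left _ (Nat.pow_le_pow_right hX1 (by norm_num))).trans hw
  rcases Nat.lt_or_ge (R + 1) n with hRn | hRn
  · exact light_core hA hC hR' hlam hsum (Or.inl hpos) hR3 hRn hRX h1 hw12 hD ha hX hl1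
      hwa hDD h2a hZ1 hZ2 hZX hab hDZ hK1 hK2 hwX
  · obtain ⟨mu, hmu, hmusum, hmuex, hmudn, hmup⟩ :=
      PL81.pad_rows (a := R + 2) lam hlam (by omega)
    rw [← hmup a b, ← hmup b a]
    have hEn : ∀ j, En a mu j = En a lam j := fun j => by
      unfold En
      rw [hmudn, hmuex, hmuex]
    have hXn : ∀ j, Xn a mu j = Xn a lam j := fun j => by
      unfold Xn
      rw [hEn, hEn]
    refine light_core hA hC hR' (X := X) (R := R) hmu (by rw [hmusum, hsum]) (Or.inr ?_) hR3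
      (by omega) hRX (by rw [hmuex]; exact h1)
      (by rw [hmudn]; exact hw12) (by rw [hEn, hXn]; exact hD) ha hX hl1
      (by rw [hmudn]; exact hwa) (by rw [hmudn, hmudn]; exact hDD) (by rw [hmudn]; exact h2a)
      (Z := Z) (K := K) (by rw [hmudn]; exact hZ1) (by rw [hmudn]; exact hZ2) hZX hab
      (by rw [hEn]; exact hDZ) hK1 hK2 (by rw [hmudn]; exact hwX)
    calc R + 2 ≤ X ^ 14 + X ^ 14 := Nat.add_le_add hRX (by
          have := Nat.le_self_pow (show 14 ≠ 0 by norm_num) X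
          omega)
      _ = 2 * X ^ 14 := by ring
      _ ≤ X * X ^ 14 := Nat.mul_le_mul_right _ (by omega)
      _ = X ^ 15 := by ring
      _ ≤ X ^ 57 := Nat.pow_le_pow_right hX1 (by norm_num)

end Vale.Agent.P181.DX.X924
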