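import Vale.Agent.P181.DX.H924.Uni
import Vale.Agent.P181.HO.Defs

set_option autoImplicit false

/-!
# P181: one sentence for all `a ≤ b`, no condition on the range

From `DiagW` (line DX), `HO.DiagH` (line HO), the theorem for `w ≤ 2 a` (line TW) and `PolyS`.
-/

namespace Vale.Agent.P181.DX.X924

open Vale.Agent.P181.T4 (ex low)
open Vale.Agent.P181.H280 (plethMult)
open Vale.Agent.P181.PL

/-- **One sentence for all `a ≤ b`.** `P = C (1 + log a) ^ c`, `w = λ_2 + λ_3 + ⋯`,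
`D_2 = λ_3 + λ_4 + ⋯`: `F` holds if `w ≤ b`, or `w ≤ 2 a` (and not `w = 2 a`, `b = a + 1`), or
`D_2 ≤ b - a + 1`, or `P w ≤ b ^ 2` and `P w ≤ D_2 ^ 2`. -/
def UniY : Prop := ∃ (C : ℝ) (c : ℕ), 1 ≤ C ∧ ∀ a b : ℕ, a ≤ b →
  ∀ (n : ℕ) (lam : Fin n → ℕ),
  (dn lam 1 ≤ b ∨ (dn lam 1 ≤ 2 * a ∧ (dn lam 1 < 2 * a ∨ a + 2 ≤ b)) ∨
    a + dn lam 2 ≤ b + 1 ∨
    (C * (1 + Real.log a) ^ c * (dn lam 1 : ℝ) ≤ (b : ℝ) ^ 2 ∧
      C * (1 + Real.log a) ^ c * (dn lam 1 : ℝ) ≤ (dn lam 2 : ℝ) ^ 2)) →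
  plethMult a b n lam ≤ plethMult b a n lam

theorem uniY_of (hW : DiagW) (hH : HO.DiagH) (hT : TwiceS) (hP : PolyS) : UniY := by
  obtain ⟨C1, c1, hC1, h1⟩ := hP
  obtain ⟨C2, c2, hC2, h2⟩ := hW
  obtain ⟨C3, c3, hC3, h3⟩ := hH C2 c2
  have hC1' : (1 : ℝ) ≤ (1 + C1) ^ 2 := one_le_pow₀ (by linarith)
  refine ⟨(C2 + C3) * (1 + C1) ^ 2, (c2 + c3) + 2 * c1,
    one_le_mul_of_one_le_of_one_le (by linarith) hC1', fun a b hab n lam h => ?_⟩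
  rcases h with h | ⟨h, h'⟩ | h | ⟨h4, h5⟩
  · exact small_w hab lam h
  · exact hT a b hab n lam h h'
  · exact few_all hab lam (by omega)
  have hL0 : 0 ≤ Real.log a := Real.log_natCast_nonneg a
  obtain ⟨L, hL⟩ : ∃ L : ℝ, L = 1 + Real.log a := ⟨_, rfl⟩
  rw [← hL] at h4 h5
  have hL1 : 1 ≤ L := by
    rw [hL]
    linarith
  have hw0 : (0 : ℝ) ≤ (dn lam 1 : ℝ) := Nat.cast_nonneg _
  have hLc : 1 ≤ L ^ (2 * c1) := one_le_pow₀ hL1
  have hL2 : 1 ≤ L ^ c2 := one_le_pow₀ hL1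
  have hL3 : 1 ≤ L ^ c3 := one_le_pow₀ hL1
  have hCp : (0 : ℝ) < C2 + C3 := by linarith
  obtain ⟨T, hT'⟩ : ∃ T : ℝ, T = (C2 + C3) * L ^ (c2 + c3) * (dn lam 1 : ℝ) := ⟨_, rfl⟩
  have hT0 : 0 ≤ T := by
    rw [hT']
    positivity
  -- the two constants
  have hT2 : C2 * L ^ c2 * (dn lam 1 : ℝ) ≤ T := by
    rw [hT', pow_add]
    apply mul_le_mul_of_nonneg_right _ hw0
    calc C2 * L ^ c2 ≤ (C2 + C3) * L ^ c2 :=
          mul_le_mul_of_nonneg_right (by linarith) (by positivity)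
      _ ≤ (C2 + C3) * (L ^ c2 * L ^ c3) := by
          apply mul_le_mul_of_nonneg_left _ hCp.le
          exact le_mul_of_one_le_right (by positivity) hL3
  have hT3 : C3 * L ^ c3 * (dn lam 1 : ℝ) ≤ T := by
    rw [hT', pow_add]
    apply mul_le_mul_of_nonneg_right _ hw0
    calc C3 * L ^ c3 ≤ (C2 + C3) * L ^ c3 :=
          mul_le_mul_of_nonneg_right (by linarith) (by positivity)
      _ ≤ (C2 + C3) * (L ^ c2 * L ^ c3) := by
          apply mul_le_mul_of_nonneg_left _ hCp.le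
          exact le_mul_of_one_le_left (by positivity) hL2
  have h6 : 1 ≤ (1 + C1) ^ 2 * L ^ (2 * c1) := one_le_mul_of_one_le_of_one_le hC1' hLc
  have hTe : (1 + C1) ^ 2 * L ^ (2 * c1) * T =
      (C2 + C3) * (1 + C1) ^ 2 * L ^ (c2 + c3 + 2 * c1) * (dn lam 1 : ℝ) := by
    rw [hT', pow_add _ (c2 + c3)]
    ring
  rw [← hTe] at h4 h5
  have hTle : T ≤ (1 + C1) ^ 2 * L ^ (2 * c1) * T := le_mul_of_one_le_left hT0 h6
  have ha0 : (0 : ℝ) ≤ a := Nat.cast_nonneg _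
  have hb0 : (0 : ℝ) ≤ b := Nat.cast_nonneg _
  rcases le_or_gt T ((a : ℝ) ^ 2) with hTa | hTa
  · rcases Nat.lt_or_ge (dn lam 1) (2 * a) with h7 | h7
    · exact hT a b hab n lam h7.le (Or.inl h7)
    rcases le_or_gt (C2 * L ^ c2 * (dn lam 1 : ℝ)) (((dn lam 1 : ℝ) - a - ex lam 2) ^ 2)
      with h8 | h8
    · apply h2 a b hab n lam
      rw [Alt, ← hL]
      exact Or.inr ⟨h7, hT2.trans hTa, Or.inr ⟨(hT2.trans hTle).trans h5, h8⟩⟩
    · apply h3 a b hab n lam h7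
      · rw [← hL]
        exact h8.le
      · rw [← hL]
        exact hT3.trans hTa
  · apply h1 a b
    rw [← hL]
    have h8 : ((1 + C1) * L ^ c1 * a) ^ 2 ≤ (b : ℝ) ^ 2 := by
      calc ((1 + C1) * L ^ c1 * a) ^ 2 = (1 + C1) ^ 2 * L ^ (2 * c1) * (a : ℝ) ^ 2 := by
            rw [mul_pow, mul_pow, ← pow_mul, mul_comm c1 2]
        _ ≤ (1 + C1) ^ 2 * L ^ (2 * c1) * T := by
            apply mul_le_mul_of_nonneg_left hTa.le
            positivity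
        _ ≤ _ := h4
    have h9 : (1 + C1) * L ^ c1 * a ≤ (b : ℝ) := abs_le_of_sq_le_sq' h8 hb0 |>.2
    have h10 : 0 ≤ L ^ c1 * (a : ℝ) := by positivity
    calc C1 * a * L ^ c1 ≤ (1 + C1) * L ^ c1 * a := by nlinarith
      _ ≤ b := h9

end Vale.Agent.P181.DX.X924
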